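import Vale.Agent.P216.Ch2.Ns
import Vale.Agent.P216.Ch2.H83.Exc

/-!
# Theorem B of P216: the persistence modules of a family of pairs, and the long exact sequence

* `hrPM A A' hA hA' q`: the persistence module `t ↦ H^q(A t, A' t)`.
* `haPM A hA q`: the persistence module `t ↦ H^q(A t)` (`B64.HU`).
* `lesA, lesB, lesD`: the natural long exact sequence of `(X t, A t)`.
-/

set_option linter.all false

open Set

namespace Vale.Agent.P216.Ch2.H83

open Vale.Agent.P216.AS Vale.Agent.P216.Ch2.AS Vale.Agent.P216.Ch2.H901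

section Zr

variable {E : Type} [PseudoMetricSpace E] {k : Type} [Field k]

/-- Without symmetries the world does not matter. -/
theorem zr_le (X Y A : Set E) : Zr (tr E) (on k) X A ≤ Zr (tr E) (on k) Y A :=
  fun _ _ h => ⟨fun i => i.elim, h.2⟩

theorem zr_le' (X Y : Set E) {A B : Set E} (h : B ⊆ A) :
    Zr (tr E) (on k) X A ≤ Zr (tr E) (on k) Y B := (zr_le X Y A).trans (Zr_anti le_rfl h)

end Zr

section PM

variable {E : Type} [PseudoMetricSpace E] (k : Type) [Field k]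

/-- Monotone for `t > 0`. -/
abbrev MonoP (A : ℝ → Set E) : Prop := ∀ s t, 0 < s → s ≤ t → A s ⊆ A t

theorem monoP_empty : MonoP (fun _ => (∅ : Set E)) := fun _ _ _ _ => subset_rfl

/-- The persistence module of a family of pairs. -/
def hrPM (A A' : ℝ → Set E) (hA : MonoP A) (hA' : MonoP A') (q : ℕ) : PM k where
  V t := Hr (tr E) (on k) (A t) (A' t) q
  ρ s t hs h := resR (hA s t hs h) (hA' s t hs h) q
  ρ_refl _ _ _ x := Hinc_refl _ _ x
  ρ_comp _ _ _ _ _ _ _ _ x := Hinc_comp _ _ _ _ x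

/-- The persistence module of a family of sets. -/
def haPM (A : ℝ → Set E) (hA : MonoP A) (q : ℕ) : PM k where
  V t := Ha (tr E) (on k) (A t) q
  ρ s t hs h := res (hA s t hs h) q
  ρ_refl _ _ _ x := Hinc_refl _ _ x
  ρ_comp _ _ _ _ _ _ _ _ x := Hinc_comp _ _ _ _ x

/-- Absolute groups, as pairs with the empty set. -/
def absE (X : Set E) (q : ℕ) :
    Ha (tr E) (on k) X q ≃ₗ[k] Hr (tr E) (on k) X ∅ q :=
  LinearEquiv.ofLinear (Hinc (Zr_empty (X := X)).ge le_rfl q) (Hinc (Zr_empty (X := X)).le le_rfl q)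
    (LinearMap.ext fun x => by
      rw [LinearMap.comp_apply, Hinc_comp, Hinc_refl]; rfl)
    (LinearMap.ext fun x => by
      rw [LinearMap.comp_apply, Hinc_comp, Hinc_refl]; rfl)

theorem absE_nat {X Y : Set E} (h : Y ⊆ X) (q : ℕ) (x : Ha (tr E) (on k) X q) :
    (resR h subset_rfl q : Hr (tr E) (on k) X ∅ q →ₗ[k] Hr (tr E) (on k) Y ∅ q)
      (absE k X q x) = absE k Y q (res h q x) := by
  obtain ⟨x, hx, rfl⟩ := H.exists_mk x
  rfl

theorem absE_symm_nat {X Y : Set E} (h : Y ⊆ X) (q : ℕ) (x : Hr (tr E) (on k) X ∅ q) :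
    (res h q : Ha (tr E) (on k) X q →ₗ[k] Ha (tr E) (on k) Y q) ((absE k X q).symm x) =
      (absE k Y q).symm (resR h subset_rfl q x) := by
  obtain ⟨x, hx, rfl⟩ := H.exists_mk x
  rfl

end PM

section Les

variable {E : Type} [PseudoMetricSpace E] (k : Type) [Field k]

/-- `H^q(X, A) → H^q(X)` -/
def lesA (X A : Set E) (q : ℕ) : Hr (tr E) (on k) X A q →ₗ[k] Hr (tr E) (on k) X ∅ q :=
  resR subset_rfl (empty_subset A) q

/-- `H^q(X) → H^q(A)` -/
def lesB {X A : Set E} (h : A ⊆ X) (q : ℕ) :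
    Hr (tr E) (on k) X ∅ q →ₗ[k] Hr (tr E) (on k) A ∅ q :=
  resR h subset_rfl q

/-- `H^q(A) → H^{q+1}(X, A)` -/
def lesD (X A : Set E) (q : ℕ) :
    Hr (tr E) (on k) A ∅ q →ₗ[k] Hr (tr E) (on k) X A (q + 1) :=
  Hdel (Zr (tr E) (on k) X ∅) (Zr (tr E) (on k) X A) (Zr (tr E) (on k) X X) q ∘ₗ
    Hinc (zr_le A X ∅) (zr_le A X A) q

/-- The change of world, `H(X world; ∅ / A) ≃ H(A)`. -/
noncomputable def worldE (X A : Set E) (q : ℕ) :
    H (Zr (tr E) (on k) X ∅) (Zr (tr E) (on k) X A) q ≃ₗ[k] Hr (tr E) (on k) A ∅ q :=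
  LinearEquiv.ofLinear (Hinc (zr_le X A ∅) (zr_le X A A) q) (Hinc (zr_le A X ∅) (zr_le A X A) q)
    (LinearMap.ext fun x => by
      rw [LinearMap.comp_apply, Hinc_comp, Hinc_refl]; rfl)
    (LinearMap.ext fun x => by
      rw [LinearMap.comp_apply, Hinc_comp, Hinc_refl]; rfl)

theorem les_ex1 {X A : Set E} (h : A ⊆ X) (q : ℕ) :
    Function.Exact (lesA k X A q) (lesB k h q) := by
  have e := exact_mid (n := q) (Zr_anti (a := tr E) (χ := on k) (le_refl X) h)
    (Zr_anti (a := tr E) (χ := on k) (le_refl X) (empty_subset A))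
  intro x
  have hx : lesB k h q x = worldE k X A q (Hinc le_rfl (Zr_anti (le_refl X) h) q x) := by
    obtain ⟨x, hx, rfl⟩ := H.exists_mk x
    rfl
  rw [hx, LinearEquiv.map_eq_zero_iff]
  exact e x

theorem les_ex2 {X A : Set E} (h : A ⊆ X) (q : ℕ) :
    Function.Exact (lesB k h q) (lesD k X A q) := by
  have e := exact_del (n := q) (Zr_anti (a := tr E) (χ := on k) (le_refl X) h)
    (Zr_anti (a := tr E) (χ := on k) (le_refl X) (empty_subset A))
  intro y
  have hy : lesD k X A q y = Hdel (Zr (tr E) (on k) X ∅) (Zr (tr E) (on k) X A)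
    (Zr (tr E) (on k) X X) q ((worldE k X A q).symm y) := rfl
  rw [hy, e ((worldE k X A q).symm y)]
  constructor
  · rintro ⟨x, hx⟩
    refine ⟨x, ?_⟩
    rw [LinearEquiv.eq_symm_apply] at hx
    rw [← hx]
    obtain ⟨x, hx, rfl⟩ := H.exists_mk x
    rfl
  · rintro ⟨x, hx⟩
    refine ⟨x, ?_⟩
    rw [LinearEquiv.eq_symm_apply, ← hx]
    obtain ⟨x, hx, rfl⟩ := H.exists_mk x
    rfl

theorem les_ex3 {X A : Set E} (h : A ⊆ X) (q : ℕ) :
    Function.Exact (lesD k X A q) (lesA k X A (q + 1)) := by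
  have e := exact_inc (n := q) (Zr_anti (a := tr E) (χ := on k) (le_refl X) h)
    (Zr_anti (a := tr E) (χ := on k) (le_refl X) (empty_subset A))
  intro y
  have := e y
  refine this.trans ⟨?_, ?_⟩
  · rintro ⟨x, hx⟩
    refine ⟨worldE k X A q x, ?_⟩
    rw [← hx]
    have : lesD k X A q (worldE k X A q x) = Hdel (Zr (tr E) (on k) X ∅) (Zr (tr E) (on k) X A)
      (Zr (tr E) (on k) X X) q ((worldE k X A q).symm (worldE k X A q x)) := rfl
    rw [this, LinearEquiv.symm_apply_apply]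
  · rintro ⟨x, hx⟩
    exact ⟨(worldE k X A q).symm x, hx⟩

/-- in degree `0` the group of the pair injects -/
theorem lesA_zero_injective (X A : Set E) : Function.Injective (lesA k X A 0) :=
  inc_zero_injective (Zr_anti le_rfl (empty_subset A))

theorem lesA_nat {X A Y B : Set E} (hY : Y ⊆ X) (hB : B ⊆ A) (q : ℕ)
    (x : Hr (tr E) (on k) X A q) :
    (resR hY subset_rfl q : Hr (tr E) (on k) X ∅ q →ₗ[k] Hr (tr E) (on k) Y ∅ q)
      (lesA k X A q x) = lesA k Y B q (resR hY hB q x) := by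
  obtain ⟨x, hx, rfl⟩ := H.exists_mk x
  rfl

theorem lesB_nat {X A Y B : Set E} (hA : A ⊆ X) (hB' : B ⊆ Y) (hY : Y ⊆ X) (hB : B ⊆ A) (q : ℕ)
    (x : Hr (tr E) (on k) X ∅ q) :
    (resR hB subset_rfl q : Hr (tr E) (on k) A ∅ q →ₗ[k] Hr (tr E) (on k) B ∅ q)
      (lesB k hA q x) = lesB k hB' q (resR hY subset_rfl q x) := by
  obtain ⟨x, hx, rfl⟩ := H.exists_mk x
  rfl

theorem lesD_nat {X A Y B : Set E} (hY : Y ⊆ X) (hB : B ⊆ A) (q : ℕ)
    (x : Hr (tr E) (on k) A ∅ q) :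
    (resR hY hB (q + 1) : Hr (tr E) (on k) X A (q + 1) →ₗ[k] Hr (tr E) (on k) Y B (q + 1))
      (lesD k X A q x) = lesD k Y B q (resR hB subset_rfl q x) := by
  obtain ⟨x, hx, rfl⟩ := H.exists_mk x
  rfl

end Les

section Fam

variable {E : Type} [PseudoMetricSpace E] (k : Type) [Field k]
  {X A : ℝ → Set E} (hX : MonoP X) (hA : MonoP A) (hAX : ∀ t, 0 < t → A t ⊆ X t)

/-- The persistence modules of the long exact sequence. -/
abbrev pmP (q : ℕ) : PM k := hrPM k X A hX hA q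
abbrev pmX (q : ℕ) : PM k := hrPM k X (fun _ => ∅) hX monoP_empty q
abbrev pmQ (q : ℕ) : PM k := hrPM k A (fun _ => ∅) hA monoP_empty q

/-- `α` -/
def fA (q : ℕ) (t : ℝ) (_ : 0 < t) : (pmP k hX hA q).V t →ₗ[k] (pmX k hX q).V t :=
  lesA k (X t) (A t) q

/-- `β` -/
def fB (q : ℕ) (t : ℝ) (ht : 0 < t) : (pmX k hX q).V t →ₗ[k] (pmQ k hA q).V t :=
  lesB k (hAX t ht) q

/-- `δ` -/
def fD (q : ℕ) (t : ℝ) (_ : 0 < t) : (pmQ k hA q).V t →ₗ[k] (pmP k hX hA (q + 1)).V t :=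
  lesD k (X t) (A t) q

theorem fA_nat (q s t hs ht) (h : s ≤ t) (x) :
    (pmX k hX q).ρ s t hs h (fA k hX hA q t ht x) = fA k hX hA q s hs ((pmP k hX hA q).ρ s t hs h x) :=
  lesA_nat k (hX s t hs h) (hA s t hs h) q x

theorem fB_nat (q s t hs ht) (h : s ≤ t) (x) :
    (pmQ k hA q).ρ s t hs h (fB k hX hA hAX q t ht x) =
      fB k hX hA hAX q s hs ((pmX k hX q).ρ s t hs h x) :=
  lesB_nat k (hAX t ht) (hAX s hs) (hX s t hs h) (hA s t hs h) q x

theorem fD_nat (q s t hs ht) (h : s ≤ t) (x) :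
    (pmP k hX hA (q + 1)).ρ s t hs h (fD k hX hA q t ht x) =
      fD k hX hA q s hs ((pmQ k hA q).ρ s t hs h x) :=
  lesD_nat k (hX s t hs h) (hA s t hs h) q x

theorem f_ex1 (q t ht) : Function.Exact (fA k hX hA q t ht) (fB k hX hA hAX q t ht) :=
  les_ex1 k (hAX t ht) q

theorem f_ex2 (q t ht) : Function.Exact (fB k hX hA hAX q t ht) (fD k hX hA q t ht) :=
  les_ex2 k (hAX t ht) q

include hAX in
theorem f_ex3 (q t ht) : Function.Exact (fD k hX hA q t ht) (fA k hX hA (q + 1) t ht) :=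
  les_ex3 k (hAX t ht) q

end Fam

end Vale.Agent.P216.Ch2.H83
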